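import Vale.Agent.P363.R.B4.Final
import Vale.Agent.P363.R.B5.FarFinal
import Vale.Agent.P363.R.B5.h924.Shell3
import Vale.Agent.P363.H943.DensClose
import Vale.Agent.P363.H942.B7.Final
import Vale.Agent.P363.H868.Scale

/-! Final assembly: disproof of Q1 by atoms with five electrons. -/

namespace Vale.Agent.P363.R.Final

open MeasureTheory Filter Topology
open Vale.Agent.P363.Stmt Vale.Agent.P363.R.Top
open scoped ContDiff ENNReal ComplexConjugate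

noncomputable section

/-- The interacting side. -/
theorem interacting_side : ∃ α β : ℝ, 0 < α ∧ α < 2 ∧ 0 < β ∧ β < 2 ∧ α + 2 * β = 2 ∧
    ∀ ε > 0, ∃ lam0 > 0, ∀ lam, 0 < lam → lam < lam0 → ∃ Ψ : ElectronState 5,
      IsGroundState (pot lam) Ψ ∧ Close α β ε Ψ ∧ FarKink (density Ψ) := by
  obtain ⟨α, β, κ, Ψ0, hα, hα2, hβ, hβ2, hs, hκ, h0, hE0, hd0, H⟩ := Vale.Agent.P363.R.B4.b4
  refine ⟨α, β, hα, hα2, hβ, hβ2, hs, fun ε hε => ?_⟩
  obtain ⟨ε1, hε1, H1⟩ := Vale.Agent.P363.B5.b5_far κ hκ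
  obtain ⟨δ, hδ, H2⟩ := Vale.Agent.P363.R.B5.b5_shell Ψ0 h0 hE0 ε hε
  -- choose the tolerance
  set t : ℝ := min (min ε1 δ) (min ε ((ε / 10) ^ 2)) with ht
  have ht0 : 0 < t := by positivity
  obtain ⟨lam1, hlam1, H3⟩ := H t ht0
  refine ⟨min lam1 t, lt_min hlam1 ht0, fun lam hl hl' => ?_⟩
  obtain ⟨Φ, Ψ, hP, hdist, hen⟩ := H3 lam hl (hl'.trans_le (min_le_left _ _))
  have hlt : lam < t := hl'.trans_le (min_le_right _ _)
  have ht1 : t ≤ ε1 := (min_le_left _ _).trans (min_le_left _ _)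
  have ht2 : t ≤ δ := (min_le_left _ _).trans (min_le_right _ _)
  have ht3 : t ≤ ε := (min_le_right _ _).trans (min_le_left _ _)
  have ht4 : t ≤ (ε / 10) ^ 2 := (min_le_right _ _).trans (min_le_right _ _)
  have hP1 : AtomPair κ lam ε1 Φ Ψ :=
    { gsΦ := hP.gsΦ, gsΨ := hP.gsΨ, E4 := hP.E4.trans ht1, E5 := hP.E5.trans ht1,
      gap := hP.gap, radial := hP.radial, zero := hP.zero, close := hP.close.trans ht1,
      dyson_mem := hP.dyson_mem }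
  obtain ⟨hi, hd⟩ := Vale.Agent.P363.H943.dens_close Ψ Ψ0 hP.gsΨ.1 h0.1
  refine ⟨Ψ, hP.gsΨ, ⟨hP.gsΨ.1, hen.trans (by linarith), ?_, ?_, ?_⟩,
    H1 lam hl (hlt.trans_le ht1) Φ Ψ hP1⟩
  · refine hi.congr ?_
    filter_upwards [hd0] with x hx
    rw [hx]
  · have e : ∫ x, |density Ψ x - n0 α β x| = ∫ x, |density Ψ x - density Ψ0 x| := by
      refine integral_congr_ae ?_
      filter_upwards [hd0] with x hx
      rw [hx]
    rw [e]
    refine hd.trans ?_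
    have : Real.sqrt (distSq Ψ Ψ0) ≤ ε / 10 := by
      rw [show ε / 10 = Real.sqrt ((ε / 10) ^ 2) from (Real.sqrt_sq (by positivity)).symm]
      exact Real.sqrt_le_sqrt (hdist.trans ht4)
    linarith
  · have := H2 lam hl (hlt.trans_le ht2) Ψ hP.gsΨ (hP.E5.trans ht2) (hdist.trans ht2)
    filter_upwards [this, hd0] with x hx hx0 h1 h2
    rw [← hx0]
    exact hx h1 h2

/-- Atoms with five electrons and large nuclear charge. -/
theorem atoms : ∃ Z₀ : ℕ, ∀ Z : ℕ, Z₀ ≤ Z → ∃ Ψ : ElectronState 5,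
    IsGroundState (coulombPotential (fun _ : Fin 1 => Z) (fun _ => 0)) Ψ ∧
      ¬ NonintEnsembleRepresentable 4 (density Ψ) := by
  obtain ⟨α, β, hα, hα2, hβ, hβ2, hs, H⟩ := interacting_side
  obtain ⟨ε, hε, K⟩ := Vale.Agent.P363.H942.ks_side α β hα hα2 hβ hβ2 hs
  obtain ⟨lam0, hl0, H1⟩ := H ε hε
  obtain ⟨Z₀, hZ₀⟩ := exists_nat_gt (1 / lam0)
  refine ⟨Z₀, fun Z hZ => ?_⟩
  have hZ' : 1 / lam0 < (Z : ℝ) := hZ₀.trans_le (by exact_mod_cast hZ)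
  have hZpos : (0 : ℝ) < Z := lt_trans (by positivity) hZ'
  have hZ1 : 1 ≤ Z := by
    have : 0 < Z := by exact_mod_cast hZpos
    omega
  obtain ⟨Ψ, hΨ, hC, hF⟩ := H1 (1 / (Z : ℝ)) (by positivity) (by
    rw [div_lt_iff₀ hZpos]
    rw [div_lt_iff₀ hl0] at hZ'
    linarith)
  obtain ⟨Ψ', hg, hd⟩ := Vale.Agent.P363.H868.scale_ground' Z hZ1 Ψ hΨ
  exact ⟨Ψ', hg, fun hr => K Ψ hC hF (Vale.Agent.P363.H868.scale_repr' Z hZpos _ _ hd hr)⟩

theorem main :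
    (∃ Z₀ : ℕ, ∀ Z : ℕ, Z₀ ≤ Z → ∃ Ψ : ElectronState 5,
      IsGroundState (coulombPotential (fun _ : Fin 1 => Z) (fun _ => 0)) Ψ ∧
        ¬ NonintEnsembleRepresentable 4 (density Ψ)) ∧
    ¬ ∀ n : ℕ, CoulombDensitiesRepresentable n := by
  refine ⟨atoms, fun H => ?_⟩
  obtain ⟨Z₀, hZ₀⟩ := atoms
  obtain ⟨Ψ, hΨ, h⟩ := hZ₀ (max Z₀ 1) (le_max_left _ _)
  exact h (H 4 1 le_rfl (fun _ => max Z₀ 1) (fun _ => le_max_right _ _) (fun _ => 0)
    (fun a b _ => Subsingleton.elim a b) Ψ hΨ)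

end

end Vale.Agent.P363.R.Final
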